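import Mathlib.Combinatorics.Enumerative.DoubleCounting
import Mathlib.Data.Set.Card
import Mathlib.Data.Fintype.EquivFin
import Mathlib.Algebra.Order.BigOperators.Ring.Finset
import Mathlib.Tactic.Ring
import Mathlib.Algebra.Module.Basic
import Mathlib.Algebra.BigOperators.Fin
import Mathlib.Tactic.Linarith

/-!
# P235, line XC, block X6: many blocks whose separators avoid the other blocks
-/

set_option autoImplicit false

namespace Vale.Agent.P235.XC.H487

open Finset

/-- a relation with at most `d` successors has large independent sets -/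
theorem indep {ι : Type} [DecidableEq ι] (R : ι → ι → Prop) [DecidableRel R] (d : ℕ) (k : ℕ) :
    ∀ A : Finset ι, (∀ i ∈ A, (A.filter (R i)).card ≤ d) → (2 * d + 1) * k ≤ A.card + 2 * d →
      ∃ T ⊆ A, T.card = k ∧ ∀ i ∈ T, ∀ j ∈ T, i ≠ j → ¬ R i j := by
  induction k with
  | zero =>
    intro A _ _
    exact ⟨∅, Finset.empty_subset _, rfl, fun i hi => absurd hi (Finset.notMem_empty _)⟩
  | succ k ih =>
    intro A hA hk
    have hpos : 0 < A.card := by
      rw [Nat.mul_succ] at hk
      omega
    obtain ⟨v, hv, hdeg⟩ : ∃ v ∈ A, (A.filter fun u => R v u ∨ R u v).card ≤ 2 * d := by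
      by_contra hcon
      push Not at hcon
      have h1 : A.card * (2 * d + 1) ≤ ∑ v ∈ A, (A.filter fun u => R v u ∨ R u v).card := by
        rw [← smul_eq_mul, ← Finset.sum_const]
        exact Finset.sum_le_sum fun v hv => hcon v hv
      have h2 : ∑ v ∈ A, (A.filter fun u => R v u ∨ R u v).card ≤
          ∑ v ∈ A, ((A.filter fun u => R v u).card + (A.filter fun u => R u v).card) := by
        refine Finset.sum_le_sum fun v _ => ?_
        rw [Finset.filter_or]
        exact Finset.card_union_le _ _
      have h3 : ∑ v ∈ A, (A.filter fun u => R u v).card = ∑ u ∈ A, (A.filter fun v => R u v).card :=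
        (Finset.sum_card_bipartiteAbove_eq_sum_card_bipartiteBelow (s := A) (t := A) R).symm
      rw [Finset.sum_add_distrib, h3] at h2
      have h4 : ∑ u ∈ A, (A.filter fun v => R u v).card ≤ A.card * d := by
        rw [← smul_eq_mul, ← Finset.sum_const]
        exact Finset.sum_le_sum fun u hu => hA u hu
      have h5 : A.card * (2 * d + 1) = 2 * (A.card * d) + A.card := by ring
      omega
    let N := A.filter fun u => R v u ∨ R u v
    let A' := (A.erase v) \ N
    have hA'A : A' ⊆ A := Finset.sdiff_subset.trans (Finset.erase_subset _ _)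
    have hcard : A.card ≤ A'.card + 1 + 2 * d := by
      have h1 : (A.erase v).card ≤ A'.card + N.card :=
        (Finset.card_le_card (by
          intro u hu
          by_cases hN : u ∈ N
          · exact Finset.mem_union_right _ hN
          · exact Finset.mem_union_left _ (Finset.mem_sdiff.2 ⟨hu, hN⟩))).trans
          (Finset.card_union_le A' N)
      rw [Finset.card_erase_of_mem hv] at h1
      have h3 : N.card ≤ 2 * d := hdeg
      omega
    obtain ⟨T, hTA, hTk, hT⟩ := ih A' (fun i hi =>
      (Finset.card_le_card (Finset.filter_subset_filter _ hA'A)).trans (hA i (hA'A hi))) (by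
        rw [Nat.mul_succ] at hk
        omega)
    have hvT : v ∉ T := fun h => by
      have := (Finset.mem_sdiff.1 (hTA h)).1
      exact (Finset.mem_erase.1 this).1 rfl
    have hN : ∀ u ∈ T, ¬ (R v u ∨ R u v) := fun u hu h => by
      have h1 := Finset.mem_sdiff.1 (hTA hu)
      exact h1.2 (Finset.mem_filter.2 ⟨hA'A (hTA hu), h⟩)
    refine ⟨insert v T, Finset.insert_subset hv (hTA.trans hA'A), ?_, ?_⟩
    · rw [Finset.card_insert_of_notMem hvT, hTk]
    · intro i hi j hj hij hR
      rcases Finset.mem_insert.1 hi with h1 | h1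
      · rcases Finset.mem_insert.1 hj with h2 | h2
        · exact hij (h1.trans h2.symm)
        · exact hN j h2 (Or.inl (h1 ▸ hR))
      · rcases Finset.mem_insert.1 hj with h2 | h2
        · exact hN i h1 (Or.inr (h2 ▸ hR))
        · exact hT i h1 j h2 hij hR

/-- **(X6)** `n` pairwise disjoint blocks, small sets `S i`: `k` blocks with `S i` off the other
blocks, for `7 k ≤ n + 6` (`n = 64`, `k = 8` or `k = 10`) -/
theorem select {V ι : Type} [Fintype ι] (k : ℕ) (hk : 7 * k ≤ Fintype.card ι + 6)
    (S B : ι → Set V) (hSf : ∀ i, (S i).Finite) (hS : ∀ i, (S i).ncard ≤ 3)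
    (hB : ∀ i j, i ≠ j → Disjoint (B i) (B j)) :
    ∃ f : Fin k → ι, Function.Injective f ∧ ∀ i j, i ≠ j → Disjoint (S (f i)) (B (f j)) := by
  classical
  let R : ι → ι → Prop := fun i j => ∃ x ∈ S i, x ∈ B j
  have hout : ∀ i ∈ (Finset.univ : Finset ι), (Finset.univ.filter (R i)).card ≤ 3 := by
    intro i _
    refine le_trans ?_ (hS i)
    rw [Set.ncard_eq_toFinset_card _ (hSf i)]
    rcases isEmpty_or_nonempty V with hV | hV
    · rw [Finset.filter_eq_empty_iff.2 fun j _ ⟨x, _⟩ => hV.elim x, Finset.card_empty]
      exact Nat.zero_le _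
    choose! g hg using fun j (hj : R i j) => hj
    refine Finset.card_le_card_of_injOn g (fun j hj => ?_) ?_
    · have := hg j (Finset.mem_filter.1 (Finset.mem_coe.1 hj)).2
      simpa using this.1
    · intro j hj j' hj' h
      by_contra hne
      have h1 := (hg j (Finset.mem_filter.1 (Finset.mem_coe.1 hj)).2).2
      have h2 := (hg j' (Finset.mem_filter.1 (Finset.mem_coe.1 hj')).2).2
      rw [h] at h1
      exact Set.disjoint_left.1 (hB j j' hne) h1 h2
  obtain ⟨T, -, hTk, hT⟩ := indep R 3 k Finset.univ hout (by
    rw [Finset.card_univ]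
    omega)
  let e := (T.equivFinOfCardEq hTk).symm
  refine ⟨fun i => (e i : ι), fun i j h => e.injective (Subtype.ext h), fun i j hij => ?_⟩
  rw [Set.disjoint_left]
  intro x hx hxB
  exact hT _ (e i).2 _ (e j).2 (fun h => hij (e.injective (Subtype.ext h))) ⟨x, hx, hxB⟩

end Vale.Agent.P235.XC.H487
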