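import Mathlib.Combinatorics.SimpleGraph.Connectivity.Connected
import Mathlib.Data.Set.Card

/-!
# P235, line XC, block X4 in plain letters: a cut misses the blocks its three vertices miss
-/

set_option autoImplicit false

namespace Vale.Agent.P235.XC.H487

open SimpleGraph

variable {V : Type} {G : SimpleGraph V}

/-- a connected set without outer neighbours of `D` is inside `D` or off `D` -/
theorem off_of {D T : Set V} (hT : (G.induce T).Preconnected)
    (hN : ∀ u ∈ D, ∀ v, G.Adj u v → v ∉ D → v ∉ T) {x : V} (hx : x ∈ T) (hxD : x ∉ D) :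
    Disjoint T D := by
  rw [Set.disjoint_left]
  intro y hy hyD
  obtain ⟨p⟩ := hT ⟨y, hy⟩ ⟨x, hx⟩
  have key : ∀ {a b : T} (p : (G.induce T).Walk a b), a.1 ∈ D → b.1 ∈ D := by
    intro a b p
    induction p with
    | nil => exact id
    | cons h p ih =>
      rename_i u v w
      intro hu
      refine ih ?_
      by_contra hv
      exact hN u.1 hu v.1 h hv v.2
  exact hxD (key p hyD)

/-- one of four disjoint sets avoids three given vertices -/
theorem free4 {ι : Type} [Fintype ι] {S : Set V} (hSf : S.Finite) (hS : S.ncard < Fintype.card ι)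
    {L : ι → Set V} (hL : ∀ i j, i ≠ j → Disjoint (L i) (L j)) : ∃ i, Disjoint (L i) S := by
  classical
  by_contra hcon
  push Not at hcon
  have h1 : ∀ i, ∃ x, x ∈ L i ∧ x ∈ S := fun i => Set.not_disjoint_iff.1 (hcon i)
  choose g hgL hgS using h1
  have hinj : Function.Injective g := by
    intro i j h
    by_contra hne
    have h2 := hgL i
    rw [h] at h2
    exact Set.disjoint_left.1 (hL i j hne) h2 (hgL j)
  have h2 : Fintype.card ι ≤ S.ncard := by
    rw [← Nat.card_eq_fintype_card, ← Nat.card_coe_set_eq]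
    have := hSf.to_subtype
    exact Nat.card_le_card_of_injective (fun i => (⟨g i, hgS i⟩ : S))
      fun i j h => hinj (congrArg Subtype.val h)
  omega

/-- one step: `T` is off `D`, four disjoint connected sets off the block meet `T`; one of them is
off `D` -/
theorem step4 {D S B T : Set V} {L : Fin 4 → Set V} (hSf : S.Finite) (hS : S.ncard ≤ 3)
    (hN : ∀ u ∈ D, ∀ v, G.Adj u v → v ∉ D → v ∈ S ∪ B)
    (hc : ∀ i, (G.induce (L i)).Preconnected) (hL : ∀ i j, i ≠ j → Disjoint (L i) (L j))
    (hB : ∀ i, Disjoint (L i) B) (hT : Disjoint T D) (hm : ∀ i, (L i ∩ T).Nonempty) :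
    ∃ i, Disjoint (L i) D := by
  obtain ⟨i, hi⟩ := free4 hSf (by rw [Fintype.card_fin]; omega) hL
  obtain ⟨x, hx, hxT⟩ := hm i
  refine ⟨i, off_of (hc i) (fun u hu v huv hv hvL => ?_) hx
    fun h => Set.disjoint_left.1 hT hxT h⟩
  rcases hN u hu v huv hv with h | h
  · exact Set.disjoint_left.1 hi hvL h
  · exact Set.disjoint_left.1 (hB i) hvL h

/-- **[X4]** in plain letters: four disjoint lines `L i` from the roots (not in `D`), each meets
four disjoint cross lines `C i j`, each of them meets four disjoint lines `E i j h` which meet the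
other block `B'`; all are connected and off the block `B`; the three vertices `S` miss `B'`. -/
theorem cut_off {D S B B' : Set V} {L : Fin 4 → Set V} {C : Fin 4 → Fin 4 → Set V}
    {E : Fin 4 → Fin 4 → Fin 4 → Set V} {x : Fin 4 → V} (hSf : S.Finite) (hS : S.ncard ≤ 3)
    (hN : ∀ u ∈ D, ∀ v, G.Adj u v → v ∉ D → v ∈ S ∪ B)
    (hLc : ∀ i, (G.induce (L i)).Preconnected) (hCc : ∀ i j, (G.induce (C i j)).Preconnected)
    (hEc : ∀ i j h, (G.induce (E i j h)).Preconnected)
    (hLd : ∀ i i', i ≠ i' → Disjoint (L i) (L i'))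
    (hCd : ∀ i j j', j ≠ j' → Disjoint (C i j) (C i j'))
    (hEd : ∀ i j h h', h ≠ h' → Disjoint (E i j h) (E i j h'))
    (hLB : ∀ i, Disjoint (L i) B) (hCB : ∀ i j, Disjoint (C i j) B)
    (hEB : ∀ i j h, Disjoint (E i j h) B)
    (hx : ∀ i, x i ∈ L i) (hxD : ∀ i, x i ∉ D)
    (hLC : ∀ i j, (C i j ∩ L i).Nonempty) (hCE : ∀ i j h, (E i j h ∩ C i j).Nonempty)
    (hEB' : ∀ i j h, (B' ∩ E i j h).Nonempty)
    (hB'c : (G.induce B').Preconnected) (hSB' : Disjoint S B') (hBB' : Disjoint B B') :
    Disjoint D B' := by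
  obtain ⟨i, hi⟩ := free4 hSf (by rw [Fintype.card_fin]; omega) hLd
  have h1 : Disjoint (L i) D := off_of (hLc i) (fun u hu v huv hv hvL => by
    rcases hN u hu v huv hv with h | h
    · exact Set.disjoint_left.1 hi hvL h
    · exact Set.disjoint_left.1 (hLB i) hvL h) (hx i) (hxD i)
  obtain ⟨j, hj⟩ := step4 hSf hS hN (hCc i) (hCd i) (hCB i) h1 (hLC i)
  obtain ⟨h, hh⟩ := step4 hSf hS hN (hEc i j) (hEd i j) (hEB i j) hj (hCE i j)
  obtain ⟨y, hy, hyE⟩ := hEB' i j h
  refine (off_of hB'c (fun u hu v huv hv hvB => ?_) hy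
    fun h' => Set.disjoint_left.1 hh hyE h').symm
  rcases hN u hu v huv hv with h' | h'
  · exact Set.disjoint_left.1 hSB' h' hvB
  · exact Set.disjoint_left.1 hBB' h' hvB

end Vale.Agent.P235.XC.H487
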