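import Vale.Agent.P235.XC.H710.GDefs
import Vale.Agent.P235.XC.H487.Lines

/-!
# P235, line XC: `X4Grid`, from the root lines of a block to another block, off three cells
-/

set_option autoImplicit false

namespace Vale.Agent.P235.XC.H487

open SimpleGraph Vale.Agent.P235.H134 Vale.Agent.P235.XC

/-- rectangles in the grid -/
def Rc (M a b c d : ℕ) : Set (Fin M × Fin M) :=
  {x | a ≤ x.1.val ∧ x.1.val < b ∧ c ≤ x.2.val ∧ x.2.val < d}

theorem rc_conn {M a b c d : ℕ} (hab : a < b) (hb : b ≤ M) (hcd : c < d) (hd : d ≤ M) :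
    ((grid M).induce (Rc M a b c d)).Connected := by
  have hmem : ∀ i j : ℕ, ∀ (hi : a + i < b) (hj : c + j < d),
      ((⟨a + i, by omega⟩, ⟨c + j, by omega⟩) : Fin M × Fin M) ∈ Rc M a b c d := by
    intro i j hi hj
    exact ⟨Nat.le_add_right _ _, hi, Nat.le_add_right _ _, hj⟩
  have hcol : ∀ i : ℕ, ∀ (hi : a + i < b), ((grid M).induce (Rc M a b c d)).Reachable
      ⟨_, hmem 0 0 (by omega) (by omega)⟩ ⟨_, hmem i 0 hi (by omega)⟩ := by
    intro i
    induction i with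
    | zero => intro hi; exact Reachable.refl _
    | succ i ih =>
      intro hi
      refine (ih (by omega)).trans (Adj.reachable ?_)
      rw [comap_adj]
      unfold grid
      rw [boxProd_adj]
      left
      refine ⟨?_, rfl⟩
      rw [pathGraph_adj]
      left
      change a + i + 1 = a + (i + 1)
      omega
  have hrow : ∀ i j : ℕ, ∀ (hi : a + i < b) (hj : c + j < d),
      ((grid M).induce (Rc M a b c d)).Reachable
      ⟨_, hmem 0 0 (by omega) (by omega)⟩ ⟨_, hmem i j hi hj⟩ := by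
    intro i j
    induction j with
    | zero => intro hi hj; exact hcol i hi
    | succ j ih =>
      intro hi hj
      refine (ih hi (by omega)).trans (Adj.reachable ?_)
      rw [comap_adj]
      unfold grid
      rw [boxProd_adj]
      right
      refine ⟨?_, rfl⟩
      rw [pathGraph_adj]
      left
      change c + j + 1 = c + (j + 1)
      omega
  rw [connected_iff_exists_forall_reachable]
  refine ⟨⟨_, hmem 0 0 (by omega) (by omega)⟩, ?_⟩
  rintro ⟨⟨⟨x1, hx1⟩, ⟨x2, hx2⟩⟩, h1, h2, h3, h4⟩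
  change a ≤ x1 at h1
  change x1 < b at h2
  change c ≤ x2 at h3
  change x2 < d at h4
  have h := hrow (x1 - a) (x2 - c) (by omega) (by omega)
  have e1 : a + (x1 - a) = x1 := by omega
  have e2 : c + (x2 - c) = x2 := by omega
  have e : (⟨(⟨a + (x1 - a), by omega⟩, ⟨c + (x2 - c), by omega⟩),
      hmem (x1 - a) (x2 - c) (by omega) (by omega)⟩ : Rc M a b c d) =
      ⟨(⟨x1, hx1⟩, ⟨x2, hx2⟩), ⟨h1, h2, h3, h4⟩⟩ :=
    Subtype.ext (Prod.ext (Fin.ext e1) (Fin.ext e2))
  rw [e] at h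
  exact h

theorem stx_lt {r : ℕ} {k l : ℕ} (h : k < l) : stx r (k + 1) ≤ stx r l := by
  unfold stx
  have : (k + 1) * (r + 2) ≤ l * (r + 2) := Nat.mul_le_mul_right (r + 2) (Nat.succ_le_of_lt h)
  omega

theorem lin0 (r : ℕ) (k : Fin 64) :
    lin r k 0 = Rc (RX r) (stx r k.val + 1) (stx r k.val + 2) (stx r (k.val + 1)) (RX r) := by
  ext ⟨x1, x2⟩
  constructor
  · rintro (⟨-, h1, h2⟩ | ⟨h, -⟩ | ⟨h, -⟩ | ⟨h, -⟩)
    · exact ⟨by omega, by omega, h2, x2.isLt⟩
    · exact absurd h (by decide)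
    · exact absurd h (by decide)
    · exact absurd h (by decide)
  · rintro ⟨h1, h2, h3, -⟩
    exact Or.inl ⟨rfl, by omega, h3⟩

theorem lin1 (r : ℕ) (k : Fin 64) :
    lin r k 1 = Rc (RX r) (stx r (k.val + 1)) (RX r) (stx r k.val + 1) (stx r k.val + 2) := by
  ext ⟨x1, x2⟩
  constructor
  · rintro (⟨h, -⟩ | ⟨-, h1, h2⟩ | ⟨h, -⟩ | ⟨h, -⟩)
    · exact absurd h (by decide)
    · exact ⟨h2, x1.isLt, by omega, by omega⟩
    · exact absurd h (by decide)
    · exact absurd h (by decide)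
  · rintro ⟨h1, -, h3, h4⟩
    exact Or.inr (Or.inl ⟨rfl, by omega, h1⟩)

theorem lin2 (r : ℕ) (k : Fin 64) :
    lin r k 2 = Rc (RX r) (stx r k.val + 1) (stx r k.val + 2) 0 (stx r k.val) := by
  ext ⟨x1, x2⟩
  constructor
  · rintro (⟨h, -⟩ | ⟨h, -⟩ | ⟨-, h1, h2⟩ | ⟨h, -⟩)
    · exact absurd h (by decide)
    · exact absurd h (by decide)
    · exact ⟨by omega, by omega, Nat.zero_le _, h2⟩
    · exact absurd h (by decide)
  · rintro ⟨h1, h2, -, h4⟩
    exact Or.inr (Or.inr (Or.inl ⟨rfl, by omega, h4⟩))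

theorem lin3 (r : ℕ) (k : Fin 64) :
    lin r k 3 = Rc (RX r) 0 (stx r k.val) (stx r k.val + 1) (stx r k.val + 2) := by
  ext ⟨x1, x2⟩
  constructor
  · rintro (⟨h, -⟩ | ⟨h, -⟩ | ⟨h, -⟩ | ⟨-, h1, h2⟩)
    · exact absurd h (by decide)
    · exact absurd h (by decide)
    · exact absurd h (by decide)
    · exact ⟨Nat.zero_le _, h2, by omega, by omega⟩
  · rintro ⟨-, h2, h3, h4⟩
    exact Or.inr (Or.inr (Or.inr ⟨rfl, by omega, h2⟩))

theorem rt_mem (r : ℕ) (k : Fin 64) (i : Fin 4) : rt r k i ∈ lin r k i := by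
  have hk1 := stx_le r k
  have hk2 := stx_succ r k.val
  have hk3 := le_stx r k.val
  have hc : ∀ i : Fin 4, i = 0 ∨ i = 1 ∨ i = 2 ∨ i = 3 := by decide
  rcases hc i with rfl | rfl | rfl | rfl
  · exact Or.inl ⟨rfl, rfl, le_refl _⟩
  · exact Or.inr (Or.inl ⟨rfl, rfl, le_refl _⟩)
  · refine Or.inr (Or.inr (Or.inl ⟨rfl, rfl, ?_⟩))
    change stx r k.val - 1 < stx r k.val
    omega
  · refine Or.inr (Or.inr (Or.inr ⟨rfl, rfl, ?_⟩))
    change stx r k.val - 1 < stx r k.val
    omega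

theorem uc {W : Type} {G : SimpleGraph W} {s t : Set W} (hs : (G.induce s).Connected)
    (ht : (G.induce t).Connected) (hst : (s ∩ t).Nonempty) : (G.induce (s ∪ t)).Connected :=
  induce_union_connected hs.preconnected ht.preconnected hst

/-- a free line in a family of pairwise disjoint ones -/
theorem free' {ι W : Type} [Fintype ι] [Finite W] {T : Set W} (hT : T.ncard ≤ 3)
    (hι : 3 < Fintype.card ι) {L : ι → Set W} (hL : ∀ i j, i ≠ j → Disjoint (L i) (L j)) :
    ∃ i, Disjoint (L i) T :=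
  free4 (Set.toFinite T) (by omega) hL

theorem x4Grid : X4Grid := by
  intro r hr k l hkl T hT hTk hTl
  have hk1 := stx_le r k
  have hk2 := stx_succ r k.val
  have hk3 := le_stx r k.val
  have hl1 := stx_le r l
  have hl2 := stx_succ r l.val
  have hl3 := le_stx r l.val
  have hkl' : stx r (k.val + 1) ≤ stx r l.val ∨ stx r (l.val + 1) ≤ stx r k.val := by
    rcases Nat.lt_or_gt_of_ne (fun h => hkl (Fin.ext h)) with h | h
    · exact Or.inl (stx_lt h)
    · exact Or.inr (stx_lt h)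
  -- the frame
  obtain ⟨p, hp⟩ := free' (ι := Fin 4) (L := fun i : Fin 4 => Rc (RX r) i.val (i.val + 1) 0 (RX r))
    hT (by decide) (by
      intro i j hij
      rw [Set.disjoint_left]
      rintro ⟨x1, x2⟩ ⟨h1, h2, -, -⟩ ⟨h3, h4, -, -⟩
      exact hij (Fin.ext (by omega)))
  obtain ⟨q, hq⟩ := free' (ι := Fin 4) (L := fun i : Fin 4 => Rc (RX r) 0 (RX r) i.val (i.val + 1))
    hT (by decide) (by
      intro i j hij
      rw [Set.disjoint_left]
      rintro ⟨x1, x2⟩ ⟨-, -, h1, h2⟩ ⟨-, -, h3, h4⟩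
      exact hij (Fin.ext (by omega)))
  obtain ⟨p', hp'⟩ := free' (ι := Fin 4)
    (L := fun i : Fin 4 => Rc (RX r) (RX r - 1 - i.val) (RX r - i.val) 0 (RX r))
    hT (by decide) (by
      intro i j hij
      rw [Set.disjoint_left]
      rintro ⟨x1, x2⟩ ⟨h1, h2, -, -⟩ ⟨h3, h4, -, -⟩
      exact hij (Fin.ext (by omega)))
  obtain ⟨q', hq'⟩ := free' (ι := Fin 4)
    (L := fun i : Fin 4 => Rc (RX r) 0 (RX r) (RX r - 1 - i.val) (RX r - i.val))
    hT (by decide) (by
      intro i j hij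
      rw [Set.disjoint_left]
      rintro ⟨x1, x2⟩ ⟨-, -, h1, h2⟩ ⟨-, -, h3, h4⟩
      exact hij (Fin.ext (by omega)))
  -- the root line
  obtain ⟨i, hi⟩ := free' (ι := Fin 4) (L := fun i : Fin 4 => lin r k i) hT (by decide) (by
      intro i j hij
      rw [Set.disjoint_left]
      rintro ⟨x1, x2⟩ h1 h2
      simp only [lin, Set.mem_ofPred_eq] at h1 h2
      rcases h1 with h1 | h1 | h1 | h1 <;> rcases h2 with h2 | h2 | h2 | h2 <;>
        obtain ⟨e1, h1, h1'⟩ := h1 <;> obtain ⟨e2, h2, h2'⟩ := h2 <;> subst e1 <;> subst e2 <;>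
        first
          | exact hij rfl
          | omega)
  -- the line of the other block
  obtain ⟨z, hz⟩ := free' (ι := Fin 3 ⊕ Fin 3) (L := fun z => Sum.elim
      (fun i : Fin 3 => Rc (RX r) (stx r l.val + i.val) (stx r l.val + i.val + 1) 0 (RX r) \ blx r l)
      (fun i : Fin 3 => Rc (RX r) 0 (RX r) (stx r l.val + i.val) (stx r l.val + i.val + 1) \ blx r l)
      z) hT (by decide) (by
      rintro (i | i) (j | j) hij <;> rw [Set.disjoint_left] <;>
        rintro ⟨x1, x2⟩ ⟨⟨h1, h2, h3, h4⟩, h5⟩ ⟨⟨h6, h7, h8, h9⟩, h10⟩ <;>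
        have hi := i.isLt <;> have hj := j.isLt
      · exact hij (congrArg Sum.inl (Fin.ext (by omega)))
      · exact h5 ⟨by omega, by omega, by omega, by omega⟩
      · exact h5 ⟨by omega, by omega, by omega, by omega⟩
      · exact hij (congrArg Sum.inr (Fin.ext (by omega))))
  have hpl := p.isLt
  have hql := q.isLt
  have hpl' := p'.isLt
  have hql' := q'.isLt
  let P := Rc (RX r) p.val (p.val + 1) 0 (RX r)
  let Q := Rc (RX r) 0 (RX r) q.val (q.val + 1)
  let P' := Rc (RX r) ((RX r) - 1 - p'.val) ((RX r) - p'.val) 0 (RX r)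
  let Q' := Rc (RX r) 0 (RX r) ((RX r) - 1 - q'.val) ((RX r) - q'.val)
  have cP : ((grid (RX r)).induce P).Connected := rc_conn (by omega) (by omega) (by omega) (by omega)
  have cQ : ((grid (RX r)).induce Q).Connected := rc_conn (by omega) (by omega) (by omega) (by omega)
  have cP' : ((grid (RX r)).induce P').Connected := rc_conn (by omega) (by omega) (by omega) (by omega)
  have cQ' : ((grid (RX r)).induce Q').Connected := rc_conn (by omega) (by omega) (by omega) (by omega)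
  have c1 : ((grid (RX r)).induce (P ∪ Q)).Connected := uc cP cQ
    ⟨(⟨p.val, by omega⟩, ⟨q.val, by omega⟩), ⟨le_refl _, Nat.lt_succ_self _, Nat.zero_le _,
      Fin.isLt _⟩, ⟨Nat.zero_le _, Fin.isLt _, le_refl _, Nat.lt_succ_self _⟩⟩
  have c2 : ((grid (RX r)).induce (P ∪ Q ∪ P')).Connected := uc c1 cP'
    ⟨(⟨(RX r) - 1 - p'.val, by omega⟩, ⟨q.val, by omega⟩), Or.inr ⟨Nat.zero_le _, Fin.isLt _,
      le_refl _, Nat.lt_succ_self _⟩, ⟨le_refl _, by change (RX r) - 1 - p'.val < (RX r) - p'.val; omega,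
        Nat.zero_le _, Fin.isLt _⟩⟩
  have c3 : ((grid (RX r)).induce (P ∪ Q ∪ P' ∪ Q')).Connected := uc c2 cQ'
    ⟨(⟨p.val, by omega⟩, ⟨(RX r) - 1 - q'.val, by omega⟩), Or.inl (Or.inl ⟨le_refl _,
      Nat.lt_succ_self _, Nat.zero_le _, Fin.isLt _⟩), ⟨Nat.zero_le _, Fin.isLt _, le_refl _,
        by change (RX r) - 1 - q'.val < (RX r) - q'.val; omega⟩⟩
  have hcase : ∀ i : Fin 4, i = 0 ∨ i = 1 ∨ i = 2 ∨ i = 3 := by decide
  have cL : ((grid (RX r)).induce (lin r k i)).Connected := by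
    rcases hcase i with rfl | rfl | rfl | rfl
    · rw [lin0]; exact rc_conn (by omega) (by omega) (by omega) (by omega)
    · rw [lin1]; exact rc_conn (by omega) (by omega) (by omega) (by omega)
    · rw [lin2]; exact rc_conn (by omega) (by omega) (by omega) (by omega)
    · rw [lin3]; exact rc_conn (by omega) (by omega) (by omega) (by omega)
  have dL : Disjoint (lin r k i) (blx r k) := by
    rw [Set.disjoint_left]
    rintro ⟨x1, x2⟩ h1 ⟨h2, h3, h4, h5⟩
    rcases h1 with h1 | h1 | h1 | h1 <;> obtain ⟨-, h6, h7⟩ := h1 <;> omega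
  have mL : ((P ∪ Q ∪ P' ∪ Q') ∩ lin r k i).Nonempty := by
    rcases hcase i with rfl | rfl | rfl | rfl
    · rw [lin0]
      exact ⟨(⟨stx r k.val + 1, by omega⟩, ⟨(RX r) - 1 - q'.val, by omega⟩), Or.inr ⟨Nat.zero_le _,
        Fin.isLt _, le_refl _, by change (RX r) - 1 - q'.val < (RX r) - q'.val; omega⟩, ⟨le_refl _,
          Nat.lt_succ_self _, by change stx r (k.val + 1) ≤ (RX r) - 1 - q'.val; omega, Fin.isLt _⟩⟩
    · rw [lin1]
      exact ⟨(⟨(RX r) - 1 - p'.val, by omega⟩, ⟨stx r k.val + 1, by omega⟩), Or.inl (Or.inr ⟨le_refl _,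
        by change (RX r) - 1 - p'.val < (RX r) - p'.val; omega, Nat.zero_le _, Fin.isLt _⟩),
          ⟨by change stx r (k.val + 1) ≤ (RX r) - 1 - p'.val; omega, Fin.isLt _, le_refl _,
            Nat.lt_succ_self _⟩⟩
    · rw [lin2]
      exact ⟨(⟨stx r k.val + 1, by omega⟩, ⟨q.val, by omega⟩), Or.inl (Or.inl (Or.inr
        ⟨Nat.zero_le _, Fin.isLt _, le_refl _, Nat.lt_succ_self _⟩)), ⟨le_refl _,
          Nat.lt_succ_self _, Nat.zero_le _, by change q.val < stx r k.val; omega⟩⟩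
    · rw [lin3]
      exact ⟨(⟨p.val, by omega⟩, ⟨stx r k.val + 1, by omega⟩), Or.inl (Or.inl (Or.inl
        ⟨le_refl _, Nat.lt_succ_self _, Nat.zero_le _, Fin.isLt _⟩)), ⟨Nat.zero_le _,
          by change p.val < stx r k.val; omega, le_refl _, Nat.lt_succ_self _⟩⟩
  have c4 := uc c3 cL mL
  have cB : ((grid (RX r)).induce (blx r l)).Connected := by
    have e : blx r l = Rc (RX r) (stx r l.val) (stx r (l.val + 1)) (stx r l.val) (stx r (l.val + 1)) :=
      rfl
    rw [e]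
    exact rc_conn (by omega) (by omega) (by omega) (by omega)
  -- the line of the block `l`
  obtain ⟨E, cE, dET, dEk, mE, mEB⟩ : ∃ E : Set (Fin (RX r) × Fin (RX r)), ((grid (RX r)).induce E).Connected ∧
      Disjoint E T ∧ Disjoint E (blx r k) ∧
      ((P ∪ Q ∪ P' ∪ Q' ∪ lin r k i) ∩ E).Nonempty ∧ (E ∩ blx r l).Nonempty := by
    rcases z with z | z
    · have hz3 := z.isLt
      refine ⟨Rc (RX r) (stx r l.val + z.val) (stx r l.val + z.val + 1) 0 (RX r),
        rc_conn (by omega) (by omega) (by omega) (by omega), ?_, ?_, ?_, ?_⟩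
      · rw [Set.disjoint_left]
        intro x hx hxT
        by_cases hxl : x ∈ blx r l
        · exact Set.disjoint_left.1 hTl hxT hxl
        · exact Set.disjoint_left.1 hz ⟨hx, hxl⟩ hxT
      · rw [Set.disjoint_left]
        rintro ⟨x1, x2⟩ ⟨h1, h2, -, -⟩ ⟨h3, h4, -, -⟩
        omega
      · exact ⟨(⟨stx r l.val + z.val, by omega⟩, ⟨q.val, by omega⟩), Or.inl (Or.inl (Or.inl (Or.inr
          ⟨Nat.zero_le _, Fin.isLt _, le_refl _, Nat.lt_succ_self _⟩))), ⟨le_refl _,
            Nat.lt_succ_self _, Nat.zero_le _, Fin.isLt _⟩⟩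
      · exact ⟨(⟨stx r l.val + z.val, by omega⟩, ⟨stx r l.val, by omega⟩), ⟨le_refl _,
          Nat.lt_succ_self _, Nat.zero_le _, Fin.isLt _⟩, ⟨Nat.le_add_right _ _,
            by change stx r l.val + z.val < stx r (l.val + 1); omega, le_refl _,
            by change stx r l.val < stx r (l.val + 1); omega⟩⟩
    · have hz3 := z.isLt
      refine ⟨Rc (RX r) 0 (RX r) (stx r l.val + z.val) (stx r l.val + z.val + 1),
        rc_conn (by omega) (by omega) (by omega) (by omega), ?_, ?_, ?_, ?_⟩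
      · rw [Set.disjoint_left]
        intro x hx hxT
        by_cases hxl : x ∈ blx r l
        · exact Set.disjoint_left.1 hTl hxT hxl
        · exact Set.disjoint_left.1 hz ⟨hx, hxl⟩ hxT
      · rw [Set.disjoint_left]
        rintro ⟨x1, x2⟩ ⟨-, -, h1, h2⟩ ⟨-, -, h3, h4⟩
        omega
      · exact ⟨(⟨p.val, by omega⟩, ⟨stx r l.val + z.val, by omega⟩), Or.inl (Or.inl (Or.inl (Or.inl
          ⟨le_refl _, Nat.lt_succ_self _, Nat.zero_le _, Fin.isLt _⟩))), ⟨Nat.zero_le _,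
            Fin.isLt _, le_refl _, Nat.lt_succ_self _⟩⟩
      · exact ⟨(⟨stx r l.val, by omega⟩, ⟨stx r l.val + z.val, by omega⟩), ⟨Nat.zero_le _,
          Fin.isLt _, le_refl _, Nat.lt_succ_self _⟩, ⟨le_refl _,
            by change stx r l.val < stx r (l.val + 1); omega, Nat.le_add_right _ _,
            by change stx r l.val + z.val < stx r (l.val + 1); omega⟩⟩
  have c5 := uc c4 cE mE
  have c6 := uc c5 cB (mEB.mono fun x hx => ⟨Or.inr hx.1, hx.2⟩)
  refine ⟨_, c6, Set.subset_union_right, ?_, ?_, i, Or.inl (Or.inl (Or.inr (rt_mem r k i)))⟩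
  · rw [Set.disjoint_left]
    rintro ⟨x1, x2⟩ ((((((h | h) | h) | h) | h) | h) | h) hxk
    · obtain ⟨h1, h2, h3, h4⟩ := h
      obtain ⟨h5, h6, h7, h8⟩ := hxk
      omega
    · obtain ⟨h1, h2, h3, h4⟩ := h
      obtain ⟨h5, h6, h7, h8⟩ := hxk
      omega
    · obtain ⟨h1, h2, h3, h4⟩ := h
      obtain ⟨h5, h6, h7, h8⟩ := hxk
      omega
    · obtain ⟨h1, h2, h3, h4⟩ := h
      obtain ⟨h5, h6, h7, h8⟩ := hxk
      omega
    · exact Set.disjoint_left.1 dL h hxk
    · exact Set.disjoint_left.1 dEk h hxk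
    · obtain ⟨h1, h2, h3, h4⟩ := h
      obtain ⟨h5, h6, h7, h8⟩ := hxk
      omega
  · rw [Set.disjoint_left]
    rintro x ((((((h | h) | h) | h) | h) | h) | h) hxT
    · exact Set.disjoint_left.1 hp h hxT
    · exact Set.disjoint_left.1 hq h hxT
    · exact Set.disjoint_left.1 hp' h hxT
    · exact Set.disjoint_left.1 hq' h hxT
    · exact Set.disjoint_left.1 hi h hxT
    · exact Set.disjoint_left.1 dET h hxT
    · exact Set.disjoint_left.1 hTl hxT h

end Vale.Agent.P235.XC.H487
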